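import Vale.Agent.P229.Profile
open scoped ContDiff
open Set Real

namespace Vale.Agent.P229

/-- the molding surface: a planar curve `(c1, c2)` with turning angle `θ`, along which the profile
`(R, h)` is carried in the normal plane -/
noncomputable def mold (R h c1 c2 θ : ℝ → ℝ) (q : ℝ × ℝ) : EuclideanSpace ℝ (Fin 3) :=
  !₂[c1 q.2 + R q.1 * sin (θ q.2), c2 q.2 - R q.1 * cos (θ q.2), h q.1]

lemma mold_contDiffOn {R h c1 c2 θ : ℝ → ℝ} {I J : Set ℝ}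
    (hR : ContDiffOn ℝ ∞ R I) (hh : ContDiffOn ℝ ∞ h I) (h1 : ContDiffOn ℝ ∞ c1 J)
    (h2 : ContDiffOn ℝ ∞ c2 J) (hθ : ContDiffOn ℝ ∞ θ J) :
    ContDiffOn ℝ ∞ (mold R h c1 c2 θ) (I ×ˢ J) := by
  have hfst : ContDiffOn ℝ ∞ (fun q : ℝ × ℝ => q.1) (I ×ˢ J) := contDiff_fst.contDiffOn
  have hsnd : ContDiffOn ℝ ∞ (fun q : ℝ × ℝ => q.2) (I ×ˢ J) := contDiff_snd.contDiffOn
  have m1 : MapsTo (fun q : ℝ × ℝ => q.1) (I ×ˢ J) I := fun q hq => hq.1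
  have m2 : MapsTo (fun q : ℝ × ℝ => q.2) (I ×ˢ J) J := fun q hq => hq.2
  have hR' : ContDiffOn ℝ ∞ (fun q : ℝ × ℝ => R q.1) (I ×ˢ J) := hR.comp hfst m1
  have hh' : ContDiffOn ℝ ∞ (fun q : ℝ × ℝ => h q.1) (I ×ˢ J) := hh.comp hfst m1
  have h1' : ContDiffOn ℝ ∞ (fun q : ℝ × ℝ => c1 q.2) (I ×ˢ J) := h1.comp hsnd m2
  have h2' : ContDiffOn ℝ ∞ (fun q : ℝ × ℝ => c2 q.2) (I ×ˢ J) := h2.comp hsnd m2
  have hθ' : ContDiffOn ℝ ∞ (fun q : ℝ × ℝ => θ q.2) (I ×ˢ J) := hθ.comp hsnd m2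
  rw [contDiffOn_euclidean]
  intro i
  fin_cases i
  · simpa [mold] using h1'.add (hR'.mul (Real.contDiff_sin.comp_contDiffOn hθ'))
  · simpa [mold] using h2'.sub (hR'.mul (Real.contDiff_cos.comp_contDiffOn hθ'))
  · simpa [mold] using hh'

lemma mold_partials {R h c1 c2 θ : ℝ → ℝ} {I J : Set ℝ} (hI : IsOpen I) (hJ : IsOpen J)
    (hR : ContDiffOn ℝ ∞ R I) (hh : ContDiffOn ℝ ∞ h I) (h1 : ContDiffOn ℝ ∞ c1 J)
    (h2 : ContDiffOn ℝ ∞ c2 J) (hθ : ContDiffOn ℝ ∞ θ J)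
    {R' h' v θ' : ℝ} {q : ℝ × ℝ} (hq : q ∈ I ×ˢ J)
    (dR : HasDerivAt R R' q.1) (dh : HasDerivAt h h' q.1)
    (d1 : HasDerivAt c1 (v * cos (θ q.2)) q.2) (d2 : HasDerivAt c2 (v * sin (θ q.2)) q.2)
    (dθ : HasDerivAt θ θ' q.2) :
    inner ℝ (fderiv ℝ (mold R h c1 c2 θ) q (1, 0)) (fderiv ℝ (mold R h c1 c2 θ) q (1, 0))
        = R' ^ 2 + h' ^ 2 ∧
    inner ℝ (fderiv ℝ (mold R h c1 c2 θ) q (1, 0)) (fderiv ℝ (mold R h c1 c2 θ) q (0, 1)) = 0 ∧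
    inner ℝ (fderiv ℝ (mold R h c1 c2 θ) q (0, 1)) (fderiv ℝ (mold R h c1 c2 θ) q (0, 1))
        = (v + R q.1 * θ') ^ 2 := by
  set Φ := mold R h c1 c2 θ with hΦ
  have hopen : IsOpen (I ×ˢ J) := hI.prod hJ
  have hdiff : DifferentiableAt ℝ Φ q :=
    ((mold_contDiffOn hR hh h1 h2 hθ).contDiffAt (hopen.mem_nhds hq)).differentiableAt (by simp)
  have hF := hdiff.hasFDerivAt
  have c1' : HasDerivAt (fun t : ℝ => ((t, q.2) : ℝ × ℝ)) ((1 : ℝ), (0 : ℝ)) q.1 :=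
    (hasDerivAt_id q.1).prodMk (hasDerivAt_const q.1 q.2)
  have c2' : HasDerivAt (fun t : ℝ => ((q.1, t) : ℝ × ℝ)) ((0 : ℝ), (1 : ℝ)) q.2 :=
    (hasDerivAt_const q.2 q.1).prodMk (hasDerivAt_id q.2)
  have e1 : HasDerivAt (fun t : ℝ => Φ (t, q.2)) (fderiv ℝ Φ q (1, 0)) q.1 :=
    HasFDerivAt.comp_hasDerivAt q.1 (f := fun t : ℝ => ((t, q.2) : ℝ × ℝ)) hF c1'
  have e2 : HasDerivAt (fun t : ℝ => Φ (q.1, t)) (fderiv ℝ Φ q (0, 1)) q.2 :=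
    HasFDerivAt.comp_hasDerivAt q.2 (f := fun t : ℝ => ((q.1, t) : ℝ × ℝ)) hF c2'
  have comp1 : ∀ i, HasDerivAt (fun t : ℝ => Φ (t, q.2) i) ((fderiv ℝ Φ q (1, 0)) i) q.1 :=
    fun i => (EuclideanSpace.proj (𝕜 := ℝ) i).hasFDerivAt.comp_hasDerivAt q.1 e1
  have comp2 : ∀ i, HasDerivAt (fun t : ℝ => Φ (q.1, t) i) ((fderiv ℝ Φ q (0, 1)) i) q.2 :=
    fun i => (EuclideanSpace.proj (𝕜 := ℝ) i).hasFDerivAt.comp_hasDerivAt q.2 e2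
  have x0 : HasDerivAt (fun t : ℝ => Φ (t, q.2) 0) (R' * sin (θ q.2)) q.1 := by
    simpa [hΦ, mold] using (dR.mul_const (sin (θ q.2))).const_add (c1 q.2)
  have x1 : HasDerivAt (fun t : ℝ => Φ (t, q.2) 1) (-(R' * cos (θ q.2))) q.1 := by
    simpa [hΦ, mold] using (dR.mul_const (cos (θ q.2))).const_sub (c2 q.2)
  have x2 : HasDerivAt (fun t : ℝ => Φ (t, q.2) 2) h' q.1 := by
    simpa [hΦ, mold] using dh
  have y0 : HasDerivAt (fun t : ℝ => Φ (q.1, t) 0)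
      (v * cos (θ q.2) + R q.1 * (cos (θ q.2) * θ')) q.2 := by
    simpa [hΦ, mold] using d1.fun_add (dθ.sin.const_mul (R q.1))
  have y1 : HasDerivAt (fun t : ℝ => Φ (q.1, t) 1)
      (v * sin (θ q.2) - R q.1 * (-sin (θ q.2) * θ')) q.2 := by
    simpa [hΦ, mold] using d2.fun_sub (dθ.cos.const_mul (R q.1))
  have y2 : HasDerivAt (fun t : ℝ => Φ (q.1, t) 2) 0 q.2 := by
    simpa [hΦ, mold] using hasDerivAt_const q.2 (h q.1)
  have X0 := (comp1 0).unique x0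
  have X1 := (comp1 1).unique x1
  have X2 := (comp1 2).unique x2
  have Y0 := (comp2 0).unique y0
  have Y1 := (comp2 1).unique y1
  have Y2 := (comp2 2).unique y2
  have hcs := Real.sin_sq_add_cos_sq (θ q.2)
  set s := sin (θ q.2)
  set c := cos (θ q.2)
  have hc2 : c ^ 2 = 1 - s ^ 2 := by linarith
  refine ⟨?_, ?_, ?_⟩
  · simp only [PiLp.inner_apply, Fin.sum_univ_three, X0, X1, X2, RCLike.inner_apply, conj_trivial]
    ring_nf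
    rw [hc2]; ring
  · simp only [PiLp.inner_apply, Fin.sum_univ_three, X0, X1, X2, Y0, Y1, Y2, RCLike.inner_apply,
      conj_trivial]
    ring
  · simp only [PiLp.inner_apply, Fin.sum_univ_three, Y0, Y1, Y2, RCLike.inner_apply, conj_trivial]
    ring_nf
    rw [hc2]; ring

end Vale.Agent.P229
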