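import Mathlib
open scoped ContDiff
open Set Real

namespace Vale.Agent.P229


/-- antiderivative of a smooth function on an open interval -/
lemma exists_antideriv {w : ℝ → ℝ} {x0 δ : ℝ} (hδ : 0 < δ)
    (hw : ContDiffOn ℝ ∞ w (Ioo (x0 - δ) (x0 + δ))) :
    ∃ W : ℝ → ℝ, ContDiffOn ℝ ∞ W (Ioo (x0 - δ) (x0 + δ)) ∧
      ∀ x ∈ Ioo (x0 - δ) (x0 + δ), HasDerivAt W (w x) x := by
  set J := Ioo (x0 - δ) (x0 + δ) with hJ
  have hx0 : x0 ∈ J := ⟨by linarith, by linarith⟩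
  have hJo : IsOpen J := isOpen_Ioo
  have hcont : ContinuousOn w J := hw.continuousOn
  have hder : ∀ x ∈ J, HasDerivAt (fun x => ∫ t in x0..x, w t) (w x) x := by
    intro x hx
    have hsub : uIcc x0 x ⊆ J := (ordConnected_Ioo).uIcc_subset hx0 hx
    apply intervalIntegral.integral_hasDerivAt_right
    · exact (hcont.mono hsub).intervalIntegrable
    · exact hcont.stronglyMeasurableAtFilter hJo x hx
    · exact hcont.continuousAt (hJo.mem_nhds hx)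
  refine ⟨fun x => ∫ t in x0..x, w t, ?_, hder⟩
  rw [contDiffOn_infty_iff_deriv_of_isOpen hJo]
  refine ⟨fun x hx => (hder x hx).differentiableAt.differentiableWithinAt, ?_⟩
  exact hw.congr (fun x hx => (hder x hx).deriv)



/-- the helicoidal/rotational surface built from radius `R`, phase `θ`, height `h` and pitch `κ` -/
noncomputable def surf (R θ h : ℝ → ℝ) (κ : ℝ) (q : ℝ × ℝ) : EuclideanSpace ℝ (Fin 3) :=
  !₂[R q.1 * cos (κ * q.2 + θ q.1), R q.1 * sin (κ * q.2 + θ q.1), h q.1]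

lemma surf_contDiffOn {R θ h : ℝ → ℝ} {κ : ℝ} {J : Set ℝ}
    (hR : ContDiffOn ℝ ∞ R J) (hθ : ContDiffOn ℝ ∞ θ J) (hh : ContDiffOn ℝ ∞ h J) :
    ContDiffOn ℝ ∞ (surf R θ h κ) (J ×ˢ univ) := by
  have hfst : ContDiffOn ℝ ∞ (fun q : ℝ × ℝ => q.1) (J ×ˢ (univ : Set ℝ)) := contDiff_fst.contDiffOn
  have hsnd : ContDiffOn ℝ ∞ (fun q : ℝ × ℝ => q.2) (J ×ˢ (univ : Set ℝ)) := contDiff_snd.contDiffOn
  have hmaps : MapsTo (fun q : ℝ × ℝ => q.1) (J ×ˢ (univ : Set ℝ)) J := fun q hq => hq.1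
  have hR' : ContDiffOn ℝ ∞ (fun q : ℝ × ℝ => R q.1) (J ×ˢ (univ : Set ℝ)) := hR.comp hfst hmaps
  have hθ' : ContDiffOn ℝ ∞ (fun q : ℝ × ℝ => θ q.1) (J ×ˢ (univ : Set ℝ)) := hθ.comp hfst hmaps
  have hh' : ContDiffOn ℝ ∞ (fun q : ℝ × ℝ => h q.1) (J ×ˢ (univ : Set ℝ)) := hh.comp hfst hmaps
  have harg : ContDiffOn ℝ ∞ (fun q : ℝ × ℝ => κ * q.2 + θ q.1) (J ×ˢ (univ : Set ℝ)) :=
    (contDiffOn_const.mul hsnd).add hθ'
  rw [contDiffOn_euclidean]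
  intro i
  fin_cases i
  · simpa [surf] using hR'.mul (Real.contDiff_cos.comp_contDiffOn harg)
  · simpa [surf] using hR'.mul (Real.contDiff_sin.comp_contDiffOn harg)
  · simpa [surf] using hh'

lemma surf_partials {R θ h : ℝ → ℝ} {κ : ℝ} {J : Set ℝ} (hJ : IsOpen J)
    (hR : ContDiffOn ℝ ∞ R J) (hθ : ContDiffOn ℝ ∞ θ J) (hh : ContDiffOn ℝ ∞ h J)
    {R' θ' h' : ℝ} {q : ℝ × ℝ} (hq : q.1 ∈ J)
    (dR : HasDerivAt R R' q.1) (dθ : HasDerivAt θ θ' q.1) (dh : HasDerivAt h h' q.1) :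
    inner ℝ (fderiv ℝ (surf R θ h κ) q (1, 0)) (fderiv ℝ (surf R θ h κ) q (1, 0))
        = R' ^ 2 + (R q.1) ^ 2 * θ' ^ 2 + h' ^ 2 ∧
    inner ℝ (fderiv ℝ (surf R θ h κ) q (1, 0)) (fderiv ℝ (surf R θ h κ) q (0, 1))
        = (R q.1) ^ 2 * θ' * κ ∧
    inner ℝ (fderiv ℝ (surf R θ h κ) q (0, 1)) (fderiv ℝ (surf R θ h κ) q (0, 1))
        = (R q.1) ^ 2 * κ ^ 2 := by
  have hopen : IsOpen (J ×ˢ (univ : Set ℝ)) := hJ.prod isOpen_univ
  have hmem : q ∈ J ×ˢ (univ : Set ℝ) := ⟨hq, mem_univ _⟩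
  have hdiff : DifferentiableAt ℝ (surf R θ h κ) q :=
    ((surf_contDiffOn hR hθ hh).contDiffAt (hopen.mem_nhds hmem)).differentiableAt (by simp)
  have hF := hdiff.hasFDerivAt
  -- curves
  have c1 : HasDerivAt (fun t : ℝ => ((t, q.2) : ℝ × ℝ)) ((1 : ℝ), (0 : ℝ)) q.1 :=
    (hasDerivAt_id q.1).prodMk (hasDerivAt_const q.1 q.2)
  have c2 : HasDerivAt (fun t : ℝ => ((q.1, t) : ℝ × ℝ)) ((0 : ℝ), (1 : ℝ)) q.2 :=
    (hasDerivAt_const q.2 q.1).prodMk (hasDerivAt_id q.2)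
  have e1 : HasDerivAt (fun t : ℝ => surf R θ h κ (t, q.2)) (fderiv ℝ (surf R θ h κ) q (1, 0)) q.1 :=
    HasFDerivAt.comp_hasDerivAt q.1 (f := fun t : ℝ => ((t, q.2) : ℝ × ℝ)) hF c1
  have e2 : HasDerivAt (fun t : ℝ => surf R θ h κ (q.1, t)) (fderiv ℝ (surf R θ h κ) q (0, 1)) q.2 :=
    HasFDerivAt.comp_hasDerivAt q.2 (f := fun t : ℝ => ((q.1, t) : ℝ × ℝ)) hF c2
  have comp1 : ∀ i, HasDerivAt (fun t : ℝ => surf R θ h κ (t, q.2) i)
      ((fderiv ℝ (surf R θ h κ) q (1, 0)) i) q.1 := fun i =>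
    (EuclideanSpace.proj (𝕜 := ℝ) i).hasFDerivAt.comp_hasDerivAt q.1 e1
  have comp2 : ∀ i, HasDerivAt (fun t : ℝ => surf R θ h κ (q.1, t) i)
      ((fderiv ℝ (surf R θ h κ) q (0, 1)) i) q.2 := fun i =>
    (EuclideanSpace.proj (𝕜 := ℝ) i).hasFDerivAt.comp_hasDerivAt q.2 e2
  -- explicit derivatives
  have a1 : HasDerivAt (fun t : ℝ => κ * q.2 + θ t) θ' q.1 := by
    simpa using dθ.const_add (κ * q.2)
  have a2 : HasDerivAt (fun t : ℝ => κ * t + θ q.1) κ q.2 := by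
    simpa using ((hasDerivAt_id q.2).const_mul κ).add_const (θ q.1)
  have x0 : HasDerivAt (fun t : ℝ => surf R θ h κ (t, q.2) 0)
      (R' * cos (κ * q.2 + θ q.1) + R q.1 * (-sin (κ * q.2 + θ q.1) * θ')) q.1 := by
    simpa [surf] using dR.fun_mul a1.cos
  have x1 : HasDerivAt (fun t : ℝ => surf R θ h κ (t, q.2) 1)
      (R' * sin (κ * q.2 + θ q.1) + R q.1 * (cos (κ * q.2 + θ q.1) * θ')) q.1 := by
    simpa [surf] using dR.fun_mul a1.sin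
  have x2 : HasDerivAt (fun t : ℝ => surf R θ h κ (t, q.2) 2) h' q.1 := by
    simpa [surf] using dh
  have y0 : HasDerivAt (fun t : ℝ => surf R θ h κ (q.1, t) 0)
      (R q.1 * (-sin (κ * q.2 + θ q.1) * κ)) q.2 := by
    simpa [surf] using a2.cos.const_mul (R q.1)
  have y1 : HasDerivAt (fun t : ℝ => surf R θ h κ (q.1, t) 1)
      (R q.1 * (cos (κ * q.2 + θ q.1) * κ)) q.2 := by
    simpa [surf] using a2.sin.const_mul (R q.1)
  have y2 : HasDerivAt (fun t : ℝ => surf R θ h κ (q.1, t) 2) 0 q.2 := by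
    simpa [surf] using hasDerivAt_const q.2 (h q.1)
  have X0 := (comp1 0).unique x0
  have X1 := (comp1 1).unique x1
  have X2 := (comp1 2).unique x2
  have Y0 := (comp2 0).unique y0
  have Y1 := (comp2 1).unique y1
  have Y2 := (comp2 2).unique y2
  have hcs := Real.sin_sq_add_cos_sq (κ * q.2 + θ q.1)
  set s := sin (κ * q.2 + θ q.1)
  set c := cos (κ * q.2 + θ q.1)
  have hc2 : c ^ 2 = 1 - s ^ 2 := by linarith
  refine ⟨?_, ?_, ?_⟩
  · simp only [PiLp.inner_apply, Fin.sum_univ_three, X0, X1, X2, RCLike.inner_apply, conj_trivial]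
    ring_nf
    rw [hc2]; ring
  · simp only [PiLp.inner_apply, Fin.sum_univ_three, X0, X1, X2, Y0, Y1, Y2, RCLike.inner_apply, conj_trivial]
    ring_nf
    rw [hc2]; ring
  · simp only [PiLp.inner_apply, Fin.sum_univ_three, Y0, Y1, Y2, RCLike.inner_apply, conj_trivial]
    ring_nf
    rw [hc2]; ring



/-- one-dimensional data -/
lemma exists_profile {u : Set ℝ} (hu : IsOpen u) {x0 : ℝ} (hx0 : x0 ∈ u) {E F G : ℝ → ℝ}
    (hE : ContDiffOn ℝ ∞ E u) (hF : ContDiffOn ℝ ∞ F u) (hG : ContDiffOn ℝ ∞ G u)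
    (hpos : ∀ x ∈ u, 0 < E x ∧ 0 < E x * G x - F x ^ 2) :
    ∃ (δ : ℝ) (R θ h R' θ' h' : ℝ → ℝ) (κ : ℝ), 0 < δ ∧ Ioo (x0 - δ) (x0 + δ) ⊆ u ∧
      ContDiffOn ℝ ∞ R (Ioo (x0 - δ) (x0 + δ)) ∧ ContDiffOn ℝ ∞ θ (Ioo (x0 - δ) (x0 + δ)) ∧
      ContDiffOn ℝ ∞ h (Ioo (x0 - δ) (x0 + δ)) ∧
      ∀ x ∈ Ioo (x0 - δ) (x0 + δ), HasDerivAt R (R' x) x ∧ HasDerivAt θ (θ' x) x ∧
        HasDerivAt h (h' x) x ∧
        (R' x) ^ 2 + (R x) ^ 2 * (θ' x) ^ 2 + (h' x) ^ 2 = E x ∧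
        (R x) ^ 2 * (θ' x) * κ = F x ∧ (R x) ^ 2 * κ ^ 2 = G x := by
  have hGpos : ∀ x ∈ u, 0 < G x := by
    intro x hx
    obtain ⟨h1, h2⟩ := hpos x hx
    have : 0 < E x * G x := by nlinarith [sq_nonneg (F x)]
    exact (pos_iff_pos_of_mul_pos this).1 h1
  have hGne : ∀ x ∈ u, G x ≠ 0 := fun x hx => (hGpos x hx).ne'
  set ρ : ℝ → ℝ := fun x => √(G x) with hρ
  have hρs : ContDiffOn ℝ ∞ ρ u := hG.sqrt hGne
  have hdρs : ContDiffOn ℝ ∞ (deriv ρ) u := hρs.deriv_of_isOpen hu (by simp)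
  have hρd : ∀ x ∈ u, HasDerivAt ρ (deriv ρ x) x := fun x hx =>
    ((hρs.contDiffAt (hu.mem_nhds hx)).differentiableAt (by simp)).hasDerivAt
  set A : ℝ → ℝ := fun x => E x - F x ^ 2 / G x with hA
  have hAs : ContDiffOn ℝ ∞ A u := hE.sub ((hF.pow 2).div hG hGne)
  have hApos : ∀ x ∈ u, 0 < A x := by
    intro x hx
    obtain ⟨h1, h2⟩ := hpos x hx
    have hg := hGpos x hx
    have : A x = (E x * G x - F x ^ 2) / G x := by
      simp only [hA]; field_simp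
    rw [this]; positivity
  set M : ℝ := (deriv ρ x0) ^ 2 with hM
  have hM0 : 0 ≤ M := sq_nonneg _
  set a : ℝ := min 1 (A x0 / (M + 1)) with ha
  have ha0 : 0 < a := lt_min one_pos (div_pos (hApos x0 hx0) (by positivity))
  have ha1 : a ≤ 1 := min_le_left _ _
  have ha2 : a ≤ A x0 / (M + 1) := min_le_right _ _
  have haM : a ^ 2 * M < A x0 := by
    have h1 : a ^ 2 * M ≤ a * M := by
      have : a ^ 2 ≤ a := by nlinarith
      exact mul_le_mul_of_nonneg_right this hM0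
    have h2 : a * (M + 1) ≤ A x0 := by
      rwa [le_div_iff₀ (by positivity)] at ha2
    nlinarith
  set w : ℝ → ℝ := fun x => A x - a ^ 2 * (deriv ρ x) ^ 2 with hw
  have hws : ContDiffOn ℝ ∞ w u := hAs.sub (contDiffOn_const.mul (hdρs.pow 2))
  have hw0 : 0 < w x0 := by simp only [hw]; linarith
  have hnhds : u ∩ {x | 0 < w x} ∈ nhds x0 := by
    apply Filter.inter_mem (hu.mem_nhds hx0)
    exact (hws.continuousOn.continuousAt (hu.mem_nhds hx0)).eventually (lt_mem_nhds hw0)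
  obtain ⟨δ, hδ, hball⟩ := Metric.mem_nhds_iff.1 hnhds
  rw [Real.ball_eq_Ioo] at hball
  set J := Ioo (x0 - δ) (x0 + δ) with hJ
  have hJu : J ⊆ u := fun x hx => (hball hx).1
  have hJw : ∀ x ∈ J, 0 < w x := fun x hx => (hball hx).2
  obtain ⟨h, hhs, hhd⟩ := exists_antideriv (w := fun x => √(w x)) hδ
    ((hws.mono hJu).sqrt (fun x hx => (hJw x hx).ne'))
  obtain ⟨β, hβs, hβd⟩ := exists_antideriv (w := fun x => F x / G x) hδ
    ((hF.div hG hGne).mono hJu)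
  refine ⟨δ, fun x => a * ρ x, fun x => β x / a, h, fun x => a * deriv ρ x,
    fun x => (F x / G x) / a, fun x => √(w x), 1 / a, hδ, hJu,
    contDiffOn_const.mul (hρs.mono hJu), hβs.div_const a, hhs, ?_⟩
  intro x hx
  have hxu := hJu hx
  have hg := hGpos x hxu
  have hρ2 : ρ x ^ 2 = G x := Real.sq_sqrt hg.le
  have hw2 : √(w x) ^ 2 = w x := Real.sq_sqrt (hJw x hx).le
  refine ⟨(hρd x hxu).const_mul a, (hβd x hx).div_const a, hhd x hx, ?_, ?_, ?_⟩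
  · have hwx : w x = E x - F x ^ 2 / G x - a ^ 2 * (deriv ρ x) ^ 2 := rfl
    rw [hw2, hwx]
    simp only [mul_pow, hρ2]
    field_simp
    ring
  · simp only [mul_pow, hρ2]
    field_simp
  · simp only [mul_pow, hρ2]
    field_simp


end Vale.Agent.P229
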